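import Vale.Agent.P275RJ.Xt

/-!
# P275, Riemann-Hilbert in families: the monodromy determines the object
-/

set_option linter.all false

open scoped Topology Matrix.Norms.Operator
open Filter Set Metric Complex
open Vale.Agent.P275GC (At)
open Vale.Agent.P275GC.At
open Vale.Agent.P275NA (Cy Fm Mn)
open Vale.Agent.P275ST (Pc)
open Vale.Agent.P275MO Vale.Agent.P275MB Vale.Agent.P275RL Vale.Agent.P275Z
open Vale.Agent.P281Z.Hm (an_det)

noncomputable section

namespace Vale.Agent.P275RJ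

variable {C : Type} [TopologicalSpace C] {n g : ℕ}

section loc

variable {a a' Φ F F' : ℂ → Mn n} {w c : ℂ}

theorem der_det_of (h : AnalyticAt ℂ Φ w) (d : (Φ w).det ≠ 0) (ha : (a w).trace = 0)
    (e : deriv Φ w + a w * Φ w = c • Φ w) :
    deriv (fun v => (Φ v).det) w = (Φ w).det * (c * n) := by
  rw [deriv_det h d, eq_sub_of_add_eq e, mul_sub, mul_smul_comm, inv_mul' d, Matrix.trace_sub,
    Matrix.trace_mul_comm, mul_assoc, mul_inv' d, mul_one, ha]
  simp

theorem PH.quot (hn : n ≠ 0) (h : PH a F w) (h' : PH a' F' w)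
    (e : ∀ᶠ v in 𝓝 w, (F' v).det = (F v).det) (t : (a w).trace = 0) (t' : (a' w).trace = 0) :
    deriv (fun v => F' v * (F v)⁻¹) w + a' w * (F' w * (F w)⁻¹) = F' w * (F w)⁻¹ * a w := by
  obtain ⟨c, x⟩ := h.eq.self_of_nhds
  obtain ⟨c', x'⟩ := h'.eq.self_of_nhds
  have k := der_det_of h'.an h'.det t' x'
  rw [EventuallyEq.deriv_eq e, der_det_of h.an h.det t x, e.self_of_nhds] at k
  obtain rfl : c = c' := mul_right_cancel₀ (Nat.cast_ne_zero.2 hn) (mul_left_cancel₀ h.det k)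
  rw [dmul h'.an (an_inv h.an h.det), deriv_minv h.an h.det, eq_sub_of_add_eq x,
    eq_sub_of_add_eq x']
  simp only [mul_sub, sub_mul, mul_neg, mul_smul_comm, smul_mul_assoc, mul_assoc, mul_inv' h.det,
    inv_mul_can h.det, mul_one]
  abel

/-- the quotient of two frames with the same determinant is horizontal -/
theorem PF.quot (hn : n ≠ 0) (h : PF a F w) (h' : PF a' F' w) (d : (F w).det ≠ 0)
    (e : ∀ᶠ v in 𝓝 w, (F' v).det = (F v).det) (t : (a w).trace = 0) (t' : (a' w).trace = 0) :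
    AnalyticAt ℂ (fun v => F' v * (F v)⁻¹) w ∧
      deriv (fun v => F' v * (F v)⁻¹) w + a' w * (F' w * (F w)⁻¹) = F' w * (F w)⁻¹ * a w := by
  obtain ⟨s, Φ, x, y, z⟩ := h
  have s0 : s w ≠ 0 := fun c => d (by
    rw [z.self_of_nhds, Matrix.det_smul, c, Fintype.card_fin, zero_pow hn, zero_mul])
  have s1 := x.self_of_nhds.eventually_ne s0
  have e1 : ∀ᶠ v in 𝓝 w, ((s v)⁻¹ • F' v).det = (Φ v).det := by
    filter_upwards [e, z, s1] with v p q r
    rw [Matrix.det_smul, p, q, Matrix.det_smul, inv_pow, inv_mul_cancel_left₀ (pow_ne_zero _ r)]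
  have k := (h'.smul (t := fun v => (s v)⁻¹) ((x.and s1).mono fun v p => p.1.inv₀ p.2)).ph hn
    (e1.self_of_nhds.trans_ne y.det) ((an_det y.an).congr (e1.mono fun _ p => p.symm))
  have e2 : (fun v => F' v * (F v)⁻¹) =ᶠ[𝓝 w] fun v => (s v)⁻¹ • F' v * (Φ v)⁻¹ := by
    filter_upwards [z, s1, y.ev] with v p q r
    rw [p, Matrix.inv_eq_left_inv (B := (s v)⁻¹ • (Φ v)⁻¹) (by
      rw [smul_mul_smul_comm, inv_mul_cancel₀ q, inv_mul' r.det, one_smul]), mul_smul_comm,
      smul_mul_assoc]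
  have an := k.an.mul (an_inv y.an y.det)
  refine ⟨an.congr e2.symm, ?_⟩
  rw [dv ((hd an).congr_of_eventuallyEq e2), show F' w * (F w)⁻¹ = _ from e2.self_of_nhds]
  exact PH.quot hn y k e1 t t'

/-- a continuous scalar function with constant determinant on a punctured disc is constant -/
theorem scal_const (hn : n ≠ 0) {δ : ℝ} (δ0 : 0 < δ) {K : ℂ → Mn n} {κ : ℂ}
    (h : ∀ v ∈ ball c δ, v ≠ c → ContinuousAt K v ∧ (K v).det = κ ∧ ∃ t : ℂ, K v = t • 1) :
    ∃ t : ℂ, t ^ n = κ ∧ ∀ v ∈ ball c δ, v ≠ c → K v = t • 1 := by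
  have m : ∀ L ∈ {L : ℂ | L.re < Real.log δ}, c + exp L ∈ ball c δ ∧ c + exp L ≠ c := fun L p =>
    ⟨add_mem_ball.2 ((exp_mem_ball δ0).2 p), by simp⟩
  have f : ∀ v ∈ ball c δ, v ≠ c → ∃ t : ℂ, t ^ n = κ ∧ t • 1 = K v := fun v p q => by
    obtain ⟨-, b, t, e⟩ := h v p q
    exact ⟨t, by simpa [e] using b, e.symm⟩
  have hL : ((Real.log δ - 1 : ℝ) : ℂ) ∈ {L : ℂ | L.re < Real.log δ} := by simp
  obtain ⟨t, b, e⟩ := f _ (m _ hL).1 (m _ hL).2
  refine ⟨t, b, fun v p q => ?_⟩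
  have q' := exp_log (sub_ne_zero.2 q)
  have := (convex_halfSpace_re_lt _).isPreconnected.constant_of_mapsTo
    (T := (fun t : ℂ => t • (1 : Mn n)) '' {t | t ^ n = κ})
    ((((Polynomial.nthRoots n κ).finite_toSet.subset fun c hc =>
      (Polynomial.mem_nthRoots (Nat.pos_of_ne_zero hn)).2 hc).image _).isDiscrete)
    (f := fun L => K (c + exp L)) (fun L p => (ContinuousAt.comp (f := fun L => c + exp L)
      (h _ (m L p).1 (m L p).2).1 (by fun_prop)).continuousWithinAt)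
    (fun L p => f _ (m L p).1 (m L p).2) (x := log (v - c))
    ((exp_mem_ball δ0).1 (by rw [q']; exact add_mem_ball.1 (by rwa [add_sub_cancel]))) hL
  rw [e, ← this, q', add_sub_cancel]

end loc

variable {A : At C} {l : Cy A ℂ} {d : ℤ}

/-- **INJ** -/
theorem inj (hS : Std A l n d) (P : Loc A l g n d) : INJ P := by
  classical
  haveI := hS.t2
  have hn : n ≠ 0 := by have := hS.two; omega
  rintro z ⟨lam, x', g', a', σ', R'⟩ ρ ⟨⟨⟨r0, a0, b0, g0⟩, l0, hg⟩, hx, F, h, G, hG, nr⟩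
    ⟨⟨⟨r1, a1, b1, g1⟩, l1, hg'⟩, hx', F', h', G', hG', nr'⟩ ex eR
  obtain rfl : x' = z.x := ex
  obtain rfl : R' = z.R := eR
  set z' : Dat C A.N n := ⟨lam, z.x, g', a', σ', z.R⟩
  have h1 := lt_min a0 a1
  have h2 := (min_le_left r0 r1).trans b0
  have hz : Good (A.res _ h1 h2) l z := Good.mono g0 h1 (min_le_left _ _)
  have hz' : Good (A.res _ h1 h2) l z' := Good.mono g1 h1 (min_le_right _ _)
  choose k hk using (P.cyf hx).cov
  let ψ : Fm A (Mn n) := fun j w =>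
    if b : (A.e j).symm w = z.x then 0 else F' (k ⟨_, b⟩) j w * (F (k ⟨_, b⟩) j w)⁻¹
  have e0 : ∀ (y : Pc z.x) m j, fib hx y ∈ P.U m → InU A j y →
      ψ j (A.e j y) = F' m j (A.e j y) * (F m j (A.e j y))⁻¹ := fun y m j b c => by
    have e := (A.e j).left_inv c.1
    have e' : (A.e j).symm (A.e j y) ≠ z.x := fun q => y.2 (e.symm.trans q)
    refine (dif_neg e').trans ?_
    rw [show (⟨_, e'⟩ : Pc z.x) = y from Subtype.ext e, h.coc y _ m j (hk y) b c,
      h'.coc y _ m j (hk y) b c, Matrix.mul_inv_rev, mul_assoc, mul_inv_can (wv_det_ne _ _)]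
  have d1 : ∀ (y : Pc z.x) j, InU A j y → (ψ j (A.e j y)).det = 1 := fun y j c => by
    rw [e0 y _ j (hk y) c, Matrix.det_mul, h'.det y _ j (hk y) c, ← h.det y _ j (hk y) c,
      ← Matrix.det_mul, mul_inv' (h.det_ne (hk y) c), Matrix.det_one]
  have p : ∀ j y, y ≠ z.x → InU A j y → Pt (A.res _ h1 h2) z z' ψ j y := fun j y b c => by
    let y' : Pc z.x := ⟨y, b⟩
    have e : ψ j =ᶠ[𝓝 (A.e j y)] fun v => F' (k y') j v * (F (k y') j v)⁻¹ :=
      (ev_chart (y := y') c.1 (P.ev_mem hx (hk y') c)).mono fun _ ⟨u, p, _, q⟩ =>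
        q ▸ e0 u _ j p.1 p.2
    obtain ⟨p, q⟩ := PF.quot hn (h.pf y' _ j (hk y') c) (h'.pf y' _ j (hk y') c)
      (h.det_ne (hk y') c) (((h.det_ev (hk y') c).and (h'.det_ev (y := y') (hk y') c)).mono
        fun _ s => s.2.trans s.1.symm) (hz.tr j _ (InU.off c b)) (hz'.tr j _ (InU.off c b))
    refine ⟨p.congr e.symm, (d1 y' j c).trans_ne one_ne_zero, fun _ => ?_, fun j' c' => ?_⟩
    · show z.lam • deriv (ψ j) (A.e j y) + a' j (A.e j y) * ψ j (A.e j y) = ψ j (A.e j y) * _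
      rw [l0, one_smul, dv ((hd p).congr_of_eventuallyEq e), e.self_of_nhds]
      exact q
    · have c'' : InU A j' y := ⟨c'.1.1, c'.2⟩
      show ψ j (A.e j y') * z.g j j' (A.e j y') = g' j j' (A.e j y') * ψ j' (A.e j' y')
      rw [e0 y' _ j (hk y') c, e0 y' _ j' (hk y') c'', h.chg y' _ j j' (hk y') c c'',
        h'.chg y' _ j j' (hk y') c c'', Matrix.mul_inv_rev, mul_assoc, mul_assoc, mul_assoc,
        inv_mul' (g_det_ne hz (InU.O c c'')), mul_one]
  have ha := P.inU hx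
  have hb := P.ball_res hx h1
  have dG := fun v => IsG.det (w := v) hz hg (InU.res ha) hb hG
  have dG' := fun v => IsG.det (w := v) hz' hg' (InU.res ha) hb hG'
  have s0 := hz.fr _ (InU.res ha)
  have s0' := hz'.fr _ (InU.res ha)
  obtain ⟨t, t1, t2⟩ := scal_const hn P.hδ (K := fun v => (G' v)⁻¹ * (ψ P.a v * G v))
    (κ := (σ' P.a)⁻¹.det * (z.σ P.a).det) (c := A.e P.a z.x) fun v hv hc => by
      have q' := exp_log (sub_ne_zero.2 hc)
      let q : Nd P.V P.δ := ⟨(z.x, log (v - A.e P.a z.x)), hx, (exp_mem_ball P.hδ).1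
        (by rw [q']; exact add_mem_ball.1 (by rwa [add_sub_cancel]))⟩
      have ev : A.e P.a z.x + exp q.1.2 = v := by rw [q', add_sub_cancel]
      obtain ⟨u, e⟩ := P.ν_e q
      let y := P.pc q (x := z.x) rfl
      have e' : A.e P.a y = v := e.trans ev
      have m : P.ν q ∈ P.U (k y) := P.fib_pc q rfl hx ▸ hk y
      obtain ⟨f, hf⟩ := nr q _ rfl m
      obtain ⟨f', hf'⟩ := nr' q _ rfl m
      have d0 : (G' v).det ≠ 0 := (dG' v hv).trans_ne s0'
      have dF := h.det_ne (hk y) u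
      have eψ := e0 y _ _ (hk y) u
      have an := (p _ y y.2 u).an
      have dψ := d1 y _ u
      change AnalyticAt ℂ (ψ P.a) (A.e P.a y) at an
      change F' _ _ (A.e P.a z.x + exp q.1.2) * _ = f' • (G' (A.e P.a z.x + exp q.1.2) * ex z.R _)
        at hf'
      rw [e'] at dF eψ an dψ
      rw [ev] at hf hf'
      have f0 : f ≠ 0 := fun c => mul_ne_zero dF (wv_det_ne ρ (P.b (k y) q)) (by
        rw [← Matrix.det_mul, hf, c, Matrix.det_smul, Fintype.card_fin, zero_pow hn, zero_mul])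
      refine ⟨((an_inv (hG'.an hv) d0).mul (an.mul (hG.an hv))).continuousAt, by
        rw [Matrix.det_mul, Matrix.det_mul, dψ, one_mul, dG v hv, Matrix.det_nonsing_inv,
          Matrix.det_nonsing_inv, dG' v hv], f⁻¹ * f', ?_⟩
      have e1 : G v = f⁻¹ • (F (k y) P.a v * wv ρ (P.b (k y) q) * ex z.R q.1.2) := by
        rw [hf, smul_mul_assoc, inv_smul_smul₀ f0, mul_assoc, ex_neg_mul, mul_one]
      show (G' v)⁻¹ * (ψ P.a v * G v) = _
      rw [eψ, e1, mul_smul_comm, mul_assoc, mul_assoc, inv_mul_can dF, ← mul_assoc (F' _ _ _), hf',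
        smul_mul_assoc, mul_assoc, ex_neg_mul, mul_one, smul_smul, mul_smul_comm, inv_mul' d0]
  have t0 : t ≠ 0 := fun c => mul_ne_zero (det_inv_ne s0') s0 (by rw [← t1, c, zero_pow hn])
  have hc := mem_ball_self (x := A.e P.a z.x) P.hδ
  obtain ⟨φ, hφ⟩ := isoBy_off (A := A.res _ h1 h2) (φ := ψ) hz hz' (l1.trans l0.symm) rfl
    (fun j y b c => p j y b ⟨c.1.1, c.2⟩)
    (a := P.a) ⟨InU.res ha, ha.2⟩ (χ := fun v => t • (G' v * (G v)⁻¹)) (h := t • 1)
    (((hG'.an hc).mul (an_inv (hG.an hc) ((dG _ hc).trans_ne s0))).const_smul (c := t))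
    (by
      rw [Matrix.det_smul, Matrix.det_mul]
      exact mul_ne_zero (pow_ne_zero _ t0) (mul_ne_zero ((dG' _ hc).trans_ne s0')
        (det_inv_ne ((dG _ hc).trans_ne s0))))
    (by
      filter_upwards [self_mem_nhdsWithin, nhdsWithin_le_nhds (ball_mem_nhds _ P.hδ)] with v b c
      have := congrArg (fun X => G' v * X * (G v)⁻¹) (t2 v c b)
      simpa only [mul_inv_can ((dG' v c).trans_ne s0'), mul_assoc, mul_inv' ((dG v c).trans_ne s0),
        mul_one, mul_smul_comm, smul_mul_assoc, one_mul] using this)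
    (by
      show t • (G' (A.e P.a z.x) * (G (A.e P.a z.x))⁻¹) * _ = _
      rw [hG.2, show G' (A.e P.a z.x) = _ from hG'.2, smul_mul_assoc, mul_assoc, inv_mul' s0,
        mul_smul_comm])
  exact ⟨_, h1, h2, φ, t, hφ⟩

end Vale.Agent.P275RJ
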