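import Vale.Agent.P275RL.Rd
import Vale.Agent.P275KR.Irr
import Vale.Agent.P275KR.Frm

/-!
# P275, Riemann-Hilbert in families: generic objects are stable
-/

set_option linter.all false

open Vale.Agent.P275GC (At)
open Vale.Agent.P275NA (Cy Fm Mn)
open Vale.Agent.P275MO Vale.Agent.P275RL Vale.Agent.P275Z

noncomputable section

namespace Vale.Agent.P275RJ

variable {C : Type} [TopologicalSpace C] {n g : ℕ} {A : At C} {l : Cy A ℂ} {d : ℤ}

/-- a connection with generic residue has no invariant subbundle -/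
theorem gen_irr [T2Space C] [ConnectedSpace C] {z : Dat C A.N n} (h : Good A l z)
    (hd : A.deg l = d) (h1 : z.lam = 1) (hG : Gen d z.R) {k : ℕ}
    {S : Fm A (Submodule ℂ (Fin n → ℂ))} (k0 : 0 < k) (kn : k < n) (hS : P275NA.Sub A z.g k S) :
    ¬ InvC A z S := fun hI => by
  obtain ⟨s, a, b, c⟩ := P275KR.inv_roots h (k0.trans kn) hS hI
  obtain ⟨m, e⟩ := P275KR.degS_int' h.cc hS
  have n0 : (n : ℂ) ≠ 0 := Nat.cast_ne_zero.2 (k0.trans kn).ne'
  refine hG.2 s a (fun f => ?_) (fun f => ?_) (-m) ?_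
  · rw [f, Multiset.card_zero] at b; omega
  · rw [f, IsAlgClosed.card_roots_eq_natDegree, Matrix.charpoly_natDegree_eq_dim,
      Fintype.card_fin] at b
    omega
  · rw [h1, e, hd] at c
    push_cast at c ⊢
    rw [b]
    field_simp
    linear_combination c

/-- **STB** -/
theorem stb (hS : Std A l n d) (P : Loc A l g n d) : STB P := fun z ρ r h1 h2 hR h k S a b c e =>
  haveI := hS.t2
  haveI := hS.conn
  absurd e (gen_irr h ((At.res_deg l).trans hS.deg) hR.1.lam hR.1.gen a b c)

end Vale.Agent.P275RJ
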