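import Vale.Agent.P275RL.Chg

/-!
# P275, Riemann-Hilbert in families: isomorphisms given on the unit discs, off the pole
-/

set_option linter.all false

open scoped Topology Matrix.Norms.Operator
open Filter Set Metric
open Vale.Agent.P275GC (At)
open Vale.Agent.P275GC.At
open Vale.Agent.P275NA (Cy Fm Mn)
open Vale.Agent.P275MO Vale.Agent.P275MB Vale.Agent.P275RL Vale.Agent.P275Z

noncomputable section

namespace Vale.Agent.P275RJ

variable {C : Type} [TopologicalSpace C] {n : ℕ} {A : At C} {l : Cy A ℂ} {z z' : Dat C A.N n}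
  {φ : Fm A (Mn n)} {h : Mn n} {i j a : Fin A.N} {w : ℂ} {y : C}

/-- an invertible horizontal map at the point `y`, read in the unit disc of the chart `j` -/
structure Pt (A : At C) (z z' : Dat C A.N n) (φ : Fm A (Mn n)) (j : Fin A.N) (y : C) : Prop where
  an : AnalyticAt ℂ (φ j) (A.e j y)
  det : (φ j (A.e j y)).det ≠ 0
  con : y ≠ z.x → z.lam • deriv (φ j) (A.e j y) + z'.a j (A.e j y) * φ j (A.e j y) =
    φ j (A.e j y) * z.a j (A.e j y)
  law : ∀ j', InU A j' y →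
    φ j (A.e j y) * z.g j j' (A.e j y) = z'.g j j' (A.e j y) * φ j' (A.e j' y)

theorem Pt.tr (g : A.Cc z.g) (p : Pt A z z' φ j y) (hj : InU A j y) (hi : InU A i y) :
    φ j (A.e j y) = hT A z.g z'.g j i (A.e j y) (φ i (A.e i y)) := by
  rw [hT, ← p.law i hi, mul_assoc, g.inv (mem_O hj.1 hi.1), mul_one]

theorem xt1 (g : A.Cc z.g) (g' : A.Cc z'.g) (p : ∀ j y, InU A j y → Pt A z z' φ j y)
    (b : w ∈ A.O i j) (c : ‖A.tr i j w‖ < 1) :
    A.xt (hT A z.g z'.g) φ i w = hT A z.g z'.g i j w (φ j (A.tr i j w)) := by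
  obtain ⟨e, f⟩ := pick_spec b.1 i
  rw [At.xt, hT_mul g g' i j _ w b e]
  exact congrArg _ ((p j _ ⟨b.2, c⟩).tr g ⟨b.2, c⟩ ⟨e.2, f⟩).symm

theorem xt1_ev (g : A.Cc z.g) (g' : A.Cc z'.g) (p : ∀ j y, InU A j y → Pt A z z' φ j y)
    (b : w ∈ A.O i j) (c : ‖A.tr i j w‖ < 1) :
    A.xt (hT A z.g z'.g) φ i =ᶠ[𝓝 w] fun v => hT A z.g z'.g i j v (φ j (A.tr i j v)) := by
  filter_upwards [O_nhds b, (an_tr b).continuousAt.norm.eventually (gt_mem_nhds c)] with v e f
  exact xt1 g g' p e f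

/-- extension from the unit discs -/
theorem isoBy_unit (g : Good A l z) (g' : Good A l z') (el : z'.lam = z.lam) (ex : z'.x = z.x)
    (p : ∀ j y, InU A j y → Pt A z z' φ j y) (ha : InU A a z.x)
    (fr : φ a (A.e a z.x) * z.σ a = z'.σ a * h) : IsoBy A z z' (A.xt (hT A z.g z'.g) φ) h := by
  have m := hT_mul g.cc g'.cc
  have an : ∀ i, ∀ w ∈ ball (0 : ℂ) A.R, AnalyticAt ℂ (A.xt (hT A z.g z'.g) φ i) w :=
    fun i w hw => by
      obtain ⟨j, b, c⟩ := At.ex_unit hw i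
      exact (((g'.cc.an b).mul (AnalyticAt.comp (p j _ ⟨b.2, c⟩).an (an_tr b))).mul
        ((g.cc.an (tr_mem b)).comp (an_tr b))).congr (xt1_ev g.cc g'.cc p b c).symm
  refine ⟨⟨el, ex, hl_of an, fun i j w b => ?_, fun i w hw => ?_⟩, fun i w hw => ?_, fun i hx => ?_⟩
  · obtain ⟨k, c, e⟩ := At.ex_unit b.1 i
    rw [xt1 g.cc g'.cc p c e, xt1 g.cc g'.cc p (tr_O b c) (by rwa [tr_tr b]), m i j k w b c,
      hT_law g.cc b, tr_tr b]
  · obtain ⟨j, b, c⟩ := At.ex_unit hw.1 i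
    refine con_tr g g' el ex b hw.2 (an i w hw.1) (p j _ ⟨b.2, c⟩).an ?_
      ((p j _ ⟨b.2, c⟩).con hw.2)
    filter_upwards [xt1_ev g.cc g'.cc p b c, O_nhds b] with v e f
    rw [e, hT_law g.cc f]
  · obtain ⟨j, b, c⟩ := At.ex_unit hw i
    rw [xt1 g.cc g'.cc p b c, hT, Matrix.det_mul, Matrix.det_mul]
    exact mul_ne_zero (mul_ne_zero (g'.cc.det.ne b) (p j _ ⟨b.2, c⟩).det) (g.cc.det.ne (tr_mem b))
  · have c := mem_O hx ha.1
    rw [xt1 g.cc g'.cc p c (by rw [tr_e hx]; exact ha.2), g.frc i a hx ha.1, ← mul_assoc,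
      hT_law g.cc c, tr_e hx, mul_assoc, g'.frc i a (ex ▸ hx) (ex ▸ ha.1), ex, mul_assoc, fr]

/-- extension over the pole -/
theorem isoBy_off [T2Space C] (g : Good A l z) (g' : Good A l z') (el : z'.lam = z.lam)
    (ex : z'.x = z.x) (p : ∀ j y, y ≠ z.x → InU A j y → Pt A z z' φ j y) (ha : InU A a z.x)
    {χ : ℂ → Mn n} (an : AnalyticAt ℂ χ (A.e a z.x)) (d : (χ (A.e a z.x)).det ≠ 0)
    (e : φ a =ᶠ[𝓝[≠] (A.e a z.x)] χ) (fr : χ (A.e a z.x) * z.σ a = z'.σ a * h) :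
    ∃ ψ, IsoBy A z z' ψ h := by
  classical
  let ψ : Fm A (Mn n) := fun j w =>
    if (A.e j).symm w = z.x then hT A z.g z'.g j a w (χ (A.e a z.x)) else φ j w
  have e1 : ∀ j y, y ≠ z.x → InU A j y → ψ j =ᶠ[𝓝 (A.e j y)] φ j := fun j y b c =>
    eventually_of_mem ((off_open z.x j).mem_nhds (InU.offA (y := ⟨y, b⟩) c)) fun v q => if_neg q.2
  have e2 : ∀ j, InU A j z.x → ψ j (A.e j z.x) = hT A z.g z'.g j a (A.e j z.x) (χ (A.e a z.x)) :=
    fun j b => if_pos ((A.e j).left_inv b.1)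
  refine ⟨_, isoBy_unit (φ := ψ) g g' el ex (fun j y b => ?_) ha ?_⟩
  · by_cases c : y = z.x
    · subst c
      have o := mem_O b.1 ha.1
      have t := tr_e (j := a) b.1
      have e3 : ψ j =ᶠ[𝓝 (A.e j z.x)] fun v => hT A z.g z'.g j a v (χ (A.tr j a v)) := by
        rw [← nhdsNE_sup_pure, EventuallyEq, eventually_sup, eventually_pure, e2 j b, t]
        refine ⟨?_, rfl⟩
        filter_upwards [off_ev b.1, (tends_tr o).eventually (t ▸ e), nhdsWithin_le_nhds (O_nhds o),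
          nhdsWithin_le_nhds (continuous_norm.continuousAt.eventually (gt_mem_nhds b.2)),
          nhdsWithin_le_nhds ((an_tr o).continuousAt.norm.eventually
            (gt_mem_nhds (t ▸ ha.2 : ‖A.tr j a (A.e j z.x)‖ < 1)))] with v q s u k m
        have hj : InU A j ((A.e j).symm v) := ⟨map_tgt q.1, by rwa [rinv q.1]⟩
        have := (p j _ q.2 hj).tr g.cc hj (i := a) ⟨u.2, m⟩
        rw [rinv q.1] at this
        rw [← s]
        exact (if_neg q.2).trans this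
      refine ⟨(((g'.cc.an o).mul (AnalyticAt.comp (by rwa [t]) (an_tr o))).mul
        ((g.cc.an (tr_mem o)).comp (an_tr o))).congr e3.symm, ?_, fun c => absurd rfl c,
        fun j' b' => ?_⟩
      · rw [e2 j b, hT, Matrix.det_mul, Matrix.det_mul]
        exact mul_ne_zero (mul_ne_zero (g'.cc.det.ne o) d) (g.cc.det.ne (tr_mem o))
      · rw [e2 j b, e2 j' b', hT_mul g.cc g'.cc j j' a _ (mem_O b.1 b'.1) o,
          hT_law g.cc (mem_O b.1 b'.1), tr_e b.1]
    · have q := p j y c b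
      have s := e1 j y c b
      exact ⟨q.an.congr s.symm, s.self_of_nhds ▸ q.det, fun _ => by
        rw [dv ((hd q.an).congr_of_eventuallyEq s), s.self_of_nhds]; exact q.con c, fun j' b' => by
        rw [s.self_of_nhds, (e1 j' y c b').self_of_nhds]; exact q.law j' b'⟩
  · rw [e2 a ha, hT, tr_e ha.1, g.cc.one a _ (map_src ha.1), g'.cc.one a _ (map_src ha.1), one_mul,
      mul_one, fr]

end Vale.Agent.P275RJ
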